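import Vale.Agent.P133OC.Cen

/-! Sequences of approximately central approximate isometries. -/

set_option linter.all false

open Filter Topology

namespace Vale.Agent.P133OK

variable {A : Type*} [NonUnitalCStarAlgebra A] [PartialOrder A] [StarOrderedRing A]

theorem ext_null (u : ℕ → A) (hu : DenseRange u) (L : ℕ → A → A)
    (hL : ∀ k a b, ‖L k a - L k b‖ ≤ 2 * ‖a - b‖)
    (h : ∀ k j, j ≤ k → ‖L k (u j)‖ < 1 / ((k : ℝ) + 1)) (a : A) :
    Tendsto (fun k => L k a) atTop (𝓝 0) := by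
  rw [NormedAddGroup.tendsto_nhds_zero]
  intro ε hε
  obtain ⟨j, hj⟩ := hu.exists_dist_lt a (show 0 < ε / 4 by linarith)
  rw [dist_eq_norm] at hj
  have h1 := (tendsto_one_div_add_atTop_nhds_zero_nat (𝕜 := ℝ)).eventually
    (gt_mem_nhds (show (0 : ℝ) < ε / 2 by linarith))
  filter_upwards [h1, eventually_ge_atTop j] with k hk hjk
  have h2 := norm_add_le (L k a - L k (u j)) (L k (u j))
  rw [sub_add_cancel] at h2
  linarith [hL k a (u j), h k j hjk]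

theorem seq [TopologicalSpace.SeparableSpace A] (h : P133OC.Pre A) :
    ∃ d1 d2 : ℕ → A, (∀ k, ‖d1 k‖ ≤ 1) ∧ (∀ k, ‖d2 k‖ ≤ 1) ∧
      (∀ a, Tendsto (fun k => d1 k * a - a * d1 k) atTop (𝓝 0)) ∧
      (∀ a, Tendsto (fun k => d2 k * a - a * d2 k) atTop (𝓝 0)) ∧
      (∀ a, Tendsto (fun k => star (d1 k) * d1 k * a - a) atTop (𝓝 0)) ∧
      (∀ a, Tendsto (fun k => star (d2 k) * d2 k * a - a) atTop (𝓝 0)) ∧
      ∀ a, Tendsto (fun k => star (d1 k) * d2 k * a) atTop (𝓝 0) := by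
  classical
  obtain ⟨u, hu⟩ := TopologicalSpace.exists_dense_seq A
  choose d1 d2 n1 n2 hd using fun k : ℕ =>
    P133OC.cenIso_pair h ((Finset.range (k + 1)).image u) (Nat.one_div_pos_of_nat (α := ℝ) (n := k))
  have hm : ∀ k j, j ≤ k → u j ∈ (Finset.range (k + 1)).image u := fun k j hj =>
    Finset.mem_image_of_mem u (Finset.mem_range.2 (Nat.lt_succ_of_le hj))
  have ml : ∀ {d : A} (x : A), ‖d‖ ≤ 1 → ‖d * x‖ ≤ ‖x‖ := fun x hd =>
    (norm_mul_le _ _).trans (mul_le_of_le_one_left (norm_nonneg _) hd)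
  have mr : ∀ {d : A} (x : A), ‖d‖ ≤ 1 → ‖x * d‖ ≤ ‖x‖ := fun x hd =>
    (norm_mul_le _ _).trans (mul_le_of_le_one_right (norm_nonneg _) hd)
  have ss : ∀ {d e : A}, ‖d‖ ≤ 1 → ‖e‖ ≤ 1 → ‖star d * e‖ ≤ 1 := fun hd he =>
    (mr _ he).trans (by rwa [norm_star])
  have c1 : ∀ {d : A}, ‖d‖ ≤ 1 → ∀ a b : A, ‖d * a - a * d - (d * b - b * d)‖ ≤ 2 * ‖a - b‖ := by
    intro d hd a b
    have e : d * a - a * d - (d * b - b * d) = d * (a - b) - (a - b) * d := by noncomm_ring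
    rw [e]
    linarith [norm_sub_le (d * (a - b)) ((a - b) * d), ml (a - b) hd, mr (a - b) hd]
  have c2 : ∀ {d : A}, ‖d‖ ≤ 1 → ∀ a b : A, ‖d * a - a - (d * b - b)‖ ≤ 2 * ‖a - b‖ := by
    intro d hd a b
    have e : d * a - a - (d * b - b) = d * (a - b) - (a - b) := by noncomm_ring
    rw [e]
    linarith [norm_sub_le (d * (a - b)) (a - b), ml (a - b) hd]
  have c3 : ∀ {d : A}, ‖d‖ ≤ 1 → ∀ a b : A, ‖d * a - d * b‖ ≤ 2 * ‖a - b‖ := by
    intro d hd a b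
    rw [← mul_sub]
    linarith [ml (a - b) hd, norm_nonneg (a - b)]
  exact ⟨d1, d2, n1, n2,
    ext_null u hu _ (fun k => c1 (n1 k)) fun k j hj => (hd k _ (hm k j hj)).1,
    ext_null u hu _ (fun k => c1 (n2 k)) fun k j hj => (hd k _ (hm k j hj)).2.1,
    ext_null u hu _ (fun k => c2 (ss (n1 k) (n1 k))) fun k j hj => (hd k _ (hm k j hj)).2.2.1,
    ext_null u hu _ (fun k => c2 (ss (n2 k) (n2 k))) fun k j hj => (hd k _ (hm k j hj)).2.2.2.1,
    ext_null u hu _ (fun k => c3 (ss (n1 k) (n2 k))) fun k j hj =>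
      (hd k _ (hm k j hj)).2.2.2.2.1⟩

end Vale.Agent.P133OK
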